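/-
S0145 base layer: comparison of positive elements in a non-unital C*-algebra.
All statements here are independent of the final paper design.
-/
import Mathlib

set_option autoImplicit false

namespace Crest.Agent.KR

open scoped CStarAlgebra

variable {C : Type*} [NonUnitalCStarAlgebra C]

/-- `Cmp k h`: `k ≾ h`, for every `δ > 0` some `r` has `‖r⋆ h r - k‖ < δ`. -/
def Cmp (k h : C) : Prop := ∀ δ : ℝ, 0 < δ → ∃ r : C, ‖star r * h * r - k‖ < δ

/-- The hypothesis of S0145 restated. -/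
def PI (h : C) : Prop :=
  ∀ ε : ℝ, 0 < ε → ∃ r s : C,
    ‖star r * h * r - h‖ < ε ∧ ‖star s * h * s - h‖ < ε ∧ ‖star r * h * s‖ < ε

theorem cmp_conj (x k : C) : Cmp (star x * k * x) k :=
  fun δ hδ => ⟨x, by simpa using hδ⟩

theorem norm_conj_le (r x : C) : ‖star r * x * r‖ ≤ ‖r‖ ^ 2 * ‖x‖ := by
  calc ‖star r * x * r‖ ≤ ‖star r‖ * ‖x‖ * ‖r‖ := norm_mul₃_le
    _ = ‖r‖ ^ 2 * ‖x‖ := by rw [norm_star]; ring

theorem Cmp.trans {k h l : C} (h1 : Cmp k h) (h2 : Cmp h l) : Cmp k l := by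
  intro δ hδ
  obtain ⟨r, hr⟩ := h1 (δ / 2) (by positivity)
  have hpos : 0 < ‖r‖ ^ 2 + 1 := by positivity
  obtain ⟨r', hr'⟩ := h2 (δ / (2 * (‖r‖ ^ 2 + 1))) (by positivity)
  refine ⟨r' * r, ?_⟩
  have e : star (r' * r) * l * (r' * r) - k
      = star r * (star r' * l * r' - h) * r + (star r * h * r - k) := by
    simp only [star_mul]; noncomm_ring
  rw [e]
  have h3 : ‖star r * (star r' * l * r' - h) * r‖ ≤ ‖r‖ ^ 2 * ‖star r' * l * r' - h‖ :=
    norm_conj_le _ _
  have h4 : ‖r‖ ^ 2 * ‖star r' * l * r' - h‖ ≤ (‖r‖ ^ 2 + 1) * (δ / (2 * (‖r‖ ^ 2 + 1))) := by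
    apply mul_le_mul (by linarith) hr'.le (norm_nonneg _) (by positivity)
  have h5 : (‖r‖ ^ 2 + 1) * (δ / (2 * (‖r‖ ^ 2 + 1))) = δ / 2 := by
    field_simp
  calc _ ≤ ‖star r * (star r' * l * r' - h) * r‖ + ‖star r * h * r - k‖ := norm_add_le _ _
    _ < δ := by linarith

/-- Limits: if `k` is approximated by elements below `h`, then `k` is below `h`. -/
theorem Cmp.of_approx {k h : C} (H : ∀ ε : ℝ, 0 < ε → ∃ k' : C, ‖k' - k‖ < ε ∧ Cmp k' h) :
    Cmp k h := by
  intro δ hδ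
  obtain ⟨k', hk', hc⟩ := H (δ / 2) (by positivity)
  obtain ⟨r, hr⟩ := hc (δ / 2) (by positivity)
  refine ⟨r, ?_⟩
  have e : star r * h * r - k = (star r * h * r - k') + (k' - k) := by abel
  rw [e]
  calc _ ≤ ‖star r * h * r - k'‖ + ‖k' - k‖ := norm_add_le _ _
    _ < δ := by linarith

/-- Scaling on the left. -/
theorem Cmp.smul {k h : C} (H : Cmp k h) {t : ℝ} (ht : 0 ≤ t) : Cmp (t • k) h := by
  intro δ hδ
  obtain ⟨r, hr⟩ := H (δ / (t + 1)) (by positivity)
  refine ⟨(Real.sqrt t) • r, ?_⟩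
  have e : star ((Real.sqrt t) • r) * h * ((Real.sqrt t) • r) - t • k
      = t • (star r * h * r - k) := by
    have hs : Real.sqrt t * Real.sqrt t = t := Real.mul_self_sqrt ht
    rw [star_smul, smul_mul_assoc, mul_smul_comm, smul_mul_assoc, smul_smul]
    simp only [star_trivial, smul_sub, hs]
  rw [e, norm_smul, Real.norm_eq_abs, abs_of_nonneg ht]
  have h1 : t * ‖star r * h * r - k‖ ≤ t * (δ / (t + 1)) := by gcongr
  have h2 : t * (δ / (t + 1)) < δ := by
    rw [mul_div_assoc', div_lt_iff₀ (by positivity)]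
    nlinarith
  linarith

/-- (T3) Sums below a properly infinite self-adjoint element. -/
theorem Cmp.add {k₁ k₂ h : C} (hh : star h = h) (hpi : PI h) (h1 : Cmp k₁ h) (h2 : Cmp k₂ h) :
    Cmp (k₁ + k₂) h := by
  intro δ hδ
  obtain ⟨x₁, hx₁⟩ := h1 (δ / 4) (by positivity)
  obtain ⟨x₂, hx₂⟩ := h2 (δ / 4) (by positivity)
  set M : ℝ := ‖x₁‖ + ‖x₂‖ + 1 with hM
  have hMpos : 0 < M := by positivity
  obtain ⟨r, s, h₁, h₂, h₃⟩ := hpi (δ / (4 * M ^ 2)) (by positivity)
  refine ⟨r * x₁ + s * x₂, ?_⟩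
  have e : star (r * x₁ + s * x₂) * h * (r * x₁ + s * x₂) - (k₁ + k₂)
      = star x₁ * (star r * h * r - h) * x₁ + (star x₁ * h * x₁ - k₁)
        + star x₂ * (star s * h * s - h) * x₂ + (star x₂ * h * x₂ - k₂)
        + star x₁ * (star r * h * s) * x₂ + star x₂ * (star s * h * r) * x₁ := by
    simp only [star_add, star_mul]; noncomm_ring
  rw [e]
  have hsr : ‖star s * h * r‖ = ‖star r * h * s‖ := by
    rw [← norm_star (star r * h * s)]
    simp [star_mul, hh, mul_assoc]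
  set ε : ℝ := δ / (4 * M ^ 2) with hε
  have hεpos : 0 < ε := by positivity
  have hMε : M ^ 2 * ε = δ / 4 := by rw [hε]; field_simp
  have b1 : ‖star x₁ * (star r * h * r - h) * x₁‖ ≤ ‖x₁‖ ^ 2 * ε :=
    (norm_conj_le _ _).trans (by gcongr)
  have b2 : ‖star x₂ * (star s * h * s - h) * x₂‖ ≤ ‖x₂‖ ^ 2 * ε :=
    (norm_conj_le _ _).trans (by gcongr)
  have b3 : ‖star x₁ * (star r * h * s) * x₂‖ ≤ ‖x₁‖ * ε * ‖x₂‖ := by
    refine norm_mul₃_le.trans ?_
    rw [norm_star]; gcongr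
  have b4 : ‖star x₂ * (star s * h * r) * x₁‖ ≤ ‖x₂‖ * ε * ‖x₁‖ := by
    refine norm_mul₃_le.trans ?_
    rw [norm_star, hsr]; gcongr
  have hsum : (‖x₁‖ ^ 2 + ‖x₂‖ ^ 2 + 2 * (‖x₁‖ * ‖x₂‖)) * ε ≤ M ^ 2 * ε := by
    apply mul_le_mul_of_nonneg_right _ hεpos.le
    have := norm_nonneg x₁; have := norm_nonneg x₂
    rw [hM]; nlinarith
  have t := norm_add_le (star x₁ * (star r * h * r - h) * x₁ + (star x₁ * h * x₁ - k₁)
        + star x₂ * (star s * h * s - h) * x₂ + (star x₂ * h * x₂ - k₂)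
        + star x₁ * (star r * h * s) * x₂) (star x₂ * (star s * h * r) * x₁)
  have t2 := norm_add_le (star x₁ * (star r * h * r - h) * x₁ + (star x₁ * h * x₁ - k₁)
        + star x₂ * (star s * h * s - h) * x₂ + (star x₂ * h * x₂ - k₂))
        (star x₁ * (star r * h * s) * x₂)
  have t3 := norm_add_le (star x₁ * (star r * h * r - h) * x₁ + (star x₁ * h * x₁ - k₁)
        + star x₂ * (star s * h * s - h) * x₂) (star x₂ * h * x₂ - k₂)
  have t4 := norm_add_le (star x₁ * (star r * h * r - h) * x₁ + (star x₁ * h * x₁ - k₁))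
        (star x₂ * (star s * h * s - h) * x₂)
  have t5 := norm_add_le (star x₁ * (star r * h * r - h) * x₁) (star x₁ * h * x₁ - k₁)
  nlinarith

/-! ### Order -/

variable [PartialOrder C] [StarOrderedRing C]

omit [PartialOrder C] [StarOrderedRing C] in
/-- An element of the form `b * inr s` of the unitization comes from `C`. -/
theorem exists_inr_eq_mul (b : C⁺¹) (s : C) : ∃ r : C, (r : C⁺¹) = b * (s : C⁺¹) := by
  refine ⟨(b * (s : C⁺¹)).snd, ?_⟩
  ext <;> simp

/-- (T1) `0 ≤ k ≤ k'` implies `k ≾ k'`. -/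
theorem cmp_of_le {k k' : C} (hk : 0 ≤ k) (hkk : k ≤ k') : Cmp k k' := by
  intro δ hδ
  set d : ℝ := δ / 2 with hd
  have hdpos : 0 < d := by positivity
  have hk'0 : 0 ≤ k' := hk.trans hkk
  have hK' : 0 ≤ (k' : C⁺¹) := by
    have := (Unitization.inr_le_iff (0 : C) k' (by simp) (IsSelfAdjoint.of_nonneg hk'0)).2 hk'0
    simpa using this
  have hKk : (k : C⁺¹) ≤ (k' : C⁺¹) :=
    (Unitization.inr_le_iff k k' (IsSelfAdjoint.of_nonneg hk) (IsSelfAdjoint.of_nonneg hk'0)).2 hkk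
  have hKk0 : 0 ≤ (k : C⁺¹) := by
    have := (Unitization.inr_le_iff (0 : C) k (by simp) (IsSelfAdjoint.of_nonneg hk)).2 hk
    simpa using this
  set K' : C⁺¹ := (k' : C⁺¹) with hKdef
  let f : ℝ → ℝ := fun x => (Real.sqrt (x + d))⁻¹
  have hspec : ∀ x ∈ spectrum ℝ K', 0 ≤ x := fun x hx => spectrum_nonneg_of_nonneg hK' hx
  have hpos : ∀ x ∈ spectrum ℝ K', 0 < x + d := fun x hx => by linarith [hspec x hx]
  have hfc : ContinuousOn f (spectrum ℝ K') := by
    apply ContinuousOn.inv₀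
    · exact (Real.continuous_sqrt.comp (continuous_id.add continuous_const)).continuousOn
    · intro x hx
      exact (Real.sqrt_pos.2 (hpos x hx)).ne'
  have hSA : IsSelfAdjoint K' := IsSelfAdjoint.of_nonneg hK'
  set v : C⁺¹ := cfc f K' with hv
  have hvSA : IsSelfAdjoint v := cfc_predicate f K'
  have hvK : v * K' * v + d • (v * v) = 1 := by
    have h1 : cfc (fun x => f x * x * f x) K' = v * K' * v := by
      rw [cfc_mul (fun x => f x * x) f K' (by fun_prop) hfc, cfc_mul f (fun x => x) K' hfc (by fun_prop),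
        cfc_id' ℝ K']
    have h2 : cfc (fun x => d * (f x * f x)) K' = d • (v * v) := by
      rw [cfc_const_mul d (fun x => f x * f x) K' (by fun_prop), cfc_mul f f K' hfc hfc]
    have h3 : cfc (fun x => f x * x * f x + d * (f x * f x)) K' = 1 := by
      rw [cfc_congr (g := fun _ => (1 : ℝ)), cfc_const_one ℝ K']
      intro x hx
      have hp := hpos x hx
      have hs : Real.sqrt (x + d) * Real.sqrt (x + d) = x + d := Real.mul_self_sqrt hp.le
      have hne : Real.sqrt (x + d) ≠ 0 := (Real.sqrt_pos.2 hp).ne'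
      show (Real.sqrt (x + d))⁻¹ * x * (Real.sqrt (x + d))⁻¹
        + d * ((Real.sqrt (x + d))⁻¹ * (Real.sqrt (x + d))⁻¹) = 1
      field_simp
      nlinarith
    rw [← h3, cfc_add K' (fun x => f x * x * f x) (fun x => d * (f x * f x))
      ((hfc.mul continuousOn_id).mul hfc) (continuousOn_const.mul (hfc.mul hfc)),
      h1, h2]
  set s : C := CFC.sqrt k with hs
  have hss : s * s = k := CFC.sqrt_mul_sqrt_self k hk
  have hsSA : star s = s := (IsSelfAdjoint.of_nonneg (CFC.sqrt_nonneg k)).star_eq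
  obtain ⟨r, hr⟩ := exists_inr_eq_mul v s
  refine ⟨r, ?_⟩
  set w : C⁺¹ := v * (s : C⁺¹) with hw
  have hstarw : star w = (s : C⁺¹) * v := by
    rw [hw, star_mul, hvSA.star_eq, ← Unitization.inr_star, hsSA]
  have hinr : ((star r * k' * r - k : C) : C⁺¹) = star w * K' * w - (k : C⁺¹) := by
    rw [Unitization.inr_sub, Unitization.inr_mul, Unitization.inr_mul, Unitization.inr_star, hr]
  have hid : star w * K' * w - (k : C⁺¹) = (-d) • (star w * w) := by
    have hkk2 : (k : C⁺¹) = (s : C⁺¹) * (s : C⁺¹) := by rw [← Unitization.inr_mul, hss]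
    have h1 : v * K' * v = 1 - d • (v * v) := eq_sub_of_add_eq hvK
    calc star w * K' * w - (k : C⁺¹)
        = (s : C⁺¹) * (v * K' * v) * (s : C⁺¹) - (k : C⁺¹) := by
          rw [hstarw, hw]; noncomm_ring
      _ = (-d) • (star w * w) := by
          rw [h1, hkk2, hstarw, hw]
          simp only [mul_sub, sub_mul, mul_one, mul_smul_comm, smul_mul_assoc, neg_smul]
          simp only [mul_assoc, sub_sub_cancel_left]
  have hww : ‖star w * w‖ ≤ 1 := by
    have e1 : ‖star w * w‖ = ‖w * star w‖ := by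
      rw [CStarRing.norm_star_mul_self, CStarRing.norm_self_mul_star]
    have e2 : w * star w = star v * (k : C⁺¹) * v := by
      rw [hstarw, hw, hvSA.star_eq]
      have hkk2 : (k : C⁺¹) = (s : C⁺¹) * (s : C⁺¹) := by rw [← Unitization.inr_mul, hss]
      rw [hkk2]; noncomm_ring
    rw [e1, e2]
    have h0 : 0 ≤ star v * (k : C⁺¹) * v := star_left_conjugate_nonneg hKk0 v
    have h1 : star v * (k : C⁺¹) * v ≤ star v * K' * v := star_left_conjugate_le_conjugate hKk v
    have h2 : star v * K' * v ≤ 1 := by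
      rw [hvSA.star_eq]
      have h3 : 0 ≤ d • (v * v) := by
        apply smul_nonneg hdpos.le
        have := star_mul_self_nonneg v
        rwa [hvSA.star_eq] at this
      have : v * K' * v = 1 - d • (v * v) := eq_sub_of_add_eq hvK
      rw [this]
      exact sub_le_self _ h3
    have := CStarAlgebra.norm_le_norm_of_nonneg_of_le h0 (h1.trans h2)
    simpa using this
  have hnorm : ‖star r * k' * r - k‖ = ‖star w * K' * w - (k : C⁺¹)‖ := by
    rw [← hinr, Unitization.norm_inr]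
  rw [hnorm, hid, norm_smul, Real.norm_eq_abs, abs_neg, abs_of_pos hdpos]
  have : d * ‖star w * w‖ ≤ d * 1 := by gcongr
  rw [hd] at this ⊢
  linarith

end Crest.Agent.KR
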