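/-
S0145 base layer: cuts `(k-η)₊`, the ideal `J(h)`, frames.
-/
import Crest.Agent.KR.Cmp

set_option autoImplicit false

namespace Crest.Agent.KR

open scoped CStarAlgebra

variable {C : Type*} [NonUnitalCStarAlgebra C]

/-- `PI` for all positive elements, from the hypothesis of S0145. -/
def AllPI (C : Type*) [NonUnitalCStarAlgebra C] : Prop := ∀ x : C, PI (star x * x)

variable [PartialOrder C] [StarOrderedRing C]

theorem AllPI.of_nonneg (hC : AllPI C) {h : C} (hh : 0 ≤ h) : PI h := by
  have := hC (CFC.sqrt h)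
  have e : star (CFC.sqrt h) * CFC.sqrt h = h := by
    rw [(IsSelfAdjoint.of_nonneg (CFC.sqrt_nonneg h)).star_eq, CFC.sqrt_mul_sqrt_self h hh]
  rwa [e] at this

theorem cmp_refl {k : C} (hk : 0 ≤ k) : Cmp k k := cmp_of_le hk le_rfl

/-- The cut function. -/
noncomputable def cutf (η : ℝ) : ℝ → ℝ := fun x => max (x - η) 0

theorem cutf_cont (η : ℝ) : Continuous (cutf η) := by
  unfold cutf; fun_prop

theorem cutf_zero {η : ℝ} (hη : 0 ≤ η) : cutf η 0 = 0 := by
  simp [cutf, hη]

/-- `(k-η)₊`. -/
noncomputable def cut (η : ℝ) (k : C) : C := cfcₙ (cutf η) k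

theorem cut_nonneg {η : ℝ} (k : C) : 0 ≤ cut η k :=
  cfcₙ_nonneg (fun x _ => by unfold cutf; positivity)

theorem norm_sub_cut_le {η : ℝ} (hη : 0 ≤ η) {k : C} (hk : 0 ≤ k) : ‖cut η k - k‖ ≤ η := by
  have hz := cutf_zero hη
  have e : cut η k - k = cfcₙ (fun x => cutf η x - x) k := by
    rw [cfcₙ_sub (cutf η) (fun x => x) k ((cutf_cont η).continuousOn) hz continuousOn_id rfl,
      cfcₙ_id' ℝ k]
    rfl
  rw [e]
  apply norm_cfcₙ_le
  intro x hx
  have hx0 : 0 ≤ x := by
    have := quasispectrum_nonneg_of_nonneg k hk x hx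
    exact this
  unfold cutf
  rw [Real.norm_eq_abs, abs_le]
  constructor
  · have := le_max_left (x - η) 0; linarith
  · have := le_max_right (x - η) 0; rcases le_total (x - η) 0 with h | h
    · rw [max_eq_right h]; linarith
    · rw [max_eq_left h]; linarith

/-- A positive element is below `h` as soon as all its cuts are. -/
theorem Cmp.of_cut {k h : C} (hk : 0 ≤ k) (H : ∀ η : ℝ, 0 < η → Cmp (cut η k) h) : Cmp k h := by
  apply Cmp.of_approx
  intro ε hε
  refine ⟨cut (ε / 2) k, ?_, H _ (by positivity)⟩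
  have := norm_sub_cut_le (η := ε / 2) (by positivity) hk
  linarith

/-- `k * k ≾ h` implies `k ≾ h` for positive `k`. -/
theorem Cmp.of_sq {k h : C} (hk : 0 ≤ k) (H : Cmp (k * k) h) : Cmp k h := by
  apply Cmp.of_cut hk
  intro η hη
  have h1 : cut η k ≤ (1 / (4 * η)) • (k * k) := by
    have e : (1 / (4 * η)) • (k * k) = cfcₙ (fun x => (1 / (4 * η)) * (x * x)) k := by
      rw [cfcₙ_const_mul _ _ k (by fun_prop) (by simp), cfcₙ_mul (fun x => x) (fun x => x) k,
        cfcₙ_id' ℝ k]
    rw [e]
    have hz := cutf_zero hη.le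
    refine cfcₙ_mono (f := cutf η) (g := fun x => (1 / (4 * η)) * (x * x)) ?_
      ((cutf_cont η).continuousOn) (by fun_prop) hz (by simp)
    intro x _
    unfold cutf
    apply max_le
    · have : 0 ≤ (1 / (4 * η)) * (x - 2 * η) ^ 2 := by positivity
      have e2 : (1 / (4 * η)) * (x - 2 * η) ^ 2 = (1 / (4 * η)) * (x * x) - (x - η) := by
        field_simp; ring
      linarith
    · exact mul_nonneg (by positivity) (mul_self_nonneg x)
  exact (cmp_of_le (cut_nonneg k) h1).trans (H.smul (by positivity))

/-! ### The ideal `J(h)` -/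

/-- `J(h) = {z | z⋆z ≾ h}`. In a properly infinite algebra it is a closed two-sided ideal. -/
def J (h : C) : Set C := {z | Cmp (star z * z) h}

theorem J_add (hC : AllPI C) {h : C} (hh : 0 ≤ h) {z w : C} (hz : z ∈ J h) (hw : w ∈ J h) :
    z + w ∈ J h := by
  have h0 : (0 : C) ≤ star (z + w) * (z + w) := star_mul_self_nonneg _
  have hle : star (z + w) * (z + w) ≤ (2 : ℝ) • (star z * z) + (2 : ℝ) • (star w * w) := by
    have e : (2 : ℝ) • (star z * z) + (2 : ℝ) • (star w * w)
        = star (z + w) * (z + w) + star (z - w) * (z - w) := by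
      simp only [star_add, star_sub, two_smul]; noncomm_ring
    rw [e]
    exact le_add_of_nonneg_right (star_mul_self_nonneg _)
  refine (cmp_of_le h0 hle).trans ?_
  exact Cmp.add (IsSelfAdjoint.of_nonneg hh).star_eq (hC.of_nonneg hh)
    (Cmp.smul hz (by norm_num)) (Cmp.smul hw (by norm_num))

theorem J_mul_left {h : C} {z : C} (a : C) (hz : z ∈ J h) : a * z ∈ J h := by
  have h0 : (0 : C) ≤ star (a * z) * (a * z) := star_mul_self_nonneg _
  have hle : star (a * z) * (a * z) ≤ ‖star a * a‖ • (star z * z) := by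
    have e : star (a * z) * (a * z) = star z * (star a * a) * z := by
      simp only [star_mul]; noncomm_ring
    rw [e]
    exact CStarAlgebra.star_left_conjugate_le_norm_smul (IsSelfAdjoint.star_mul_self a)
  exact (cmp_of_le h0 hle).trans (Cmp.smul hz (norm_nonneg _))

omit [PartialOrder C] [StarOrderedRing C] in
theorem J_mul_right {h : C} {z : C} (a : C) (hz : z ∈ J h) : z * a ∈ J h := by
  have e : star (z * a) * (z * a) = star a * (star z * z) * a := by
    simp only [star_mul]; noncomm_ring
  show Cmp (star (z * a) * (z * a)) h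
  rw [e]
  exact (cmp_conj a _).trans hz

omit [PartialOrder C] [StarOrderedRing C] in
theorem J_isClosed (h : C) : IsClosed (J h) := by
  apply isClosed_of_closure_subset
  intro z hz
  show Cmp (star z * z) h
  apply Cmp.of_approx
  intro ε hε
  have hcont : Continuous (fun x : C => star x * x) := by fun_prop
  obtain ⟨d, hd, hd2⟩ := Metric.continuous_iff.1 hcont z ε hε
  obtain ⟨y, hy3, hy⟩ := Metric.mem_closure_iff.1 hz d hd
  refine ⟨star y * y, ?_, hy3⟩
  have := hd2 y (by rwa [dist_comm] at hy)
  simpa [dist_eq_norm] using this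

theorem sqrt_mem_J {h : C} (hh : 0 ≤ h) : CFC.sqrt h ∈ J h := by
  have e : star (CFC.sqrt h) * CFC.sqrt h = h := by
    rw [(IsSelfAdjoint.of_nonneg (CFC.sqrt_nonneg h)).star_eq, CFC.sqrt_mul_sqrt_self h hh]
  show Cmp (star (CFC.sqrt h) * CFC.sqrt h) h
  rw [e]
  exact cmp_refl hh

/-- A positive element of `J(h)` is below `h`. -/
theorem Cmp.of_mem_J {k h : C} (hk : 0 ≤ k) (H : k ∈ J h) : Cmp k h := by
  apply Cmp.of_sq hk
  have : Cmp (star k * k) h := H
  rwa [(IsSelfAdjoint.of_nonneg hk).star_eq] at this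

/-! ### Frames -/

omit [PartialOrder C] [StarOrderedRing C] in
/-- `n` approximately orthogonal copies of a properly infinite self-adjoint `h`. -/
theorem frames_aux {h : C} (hh : star h = h) (hpi : PI h) (n : ℕ) :
    ∀ ε : ℝ, 0 < ε → ∃ y : Fin n → C,
      ∀ i j, ‖star (y i) * h * y j - (if i = j then h else 0)‖ < ε := by
  induction n with
  | zero => intro ε _; exact ⟨Fin.elim0, fun i => i.elim0⟩
  | succ n ih =>
    intro ε hε
    obtain ⟨y, hy⟩ := ih (ε / 2) (by positivity)
    -- a common bound for the previous family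
    obtain ⟨M, hM0, hM⟩ : ∃ M : ℝ, 0 < M ∧ ∀ i, ‖y i‖ ≤ M := by
      refine ⟨(∑ i, ‖y i‖) + 1, by positivity, fun i => ?_⟩
      have := Finset.single_le_sum (f := fun i => ‖y i‖) (fun _ _ => norm_nonneg _) (Finset.mem_univ i)
      linarith
    set ε' : ℝ := ε / (4 * (M ^ 2 + M + 1)) with hε'
    have hε'pos : 0 < ε' := by positivity
    obtain ⟨r, s, h₁, h₂, h₃⟩ := hpi ε' hε'pos
    have hsr : ‖star s * h * r‖ = ‖star r * h * s‖ := by
      rw [← norm_star (star r * h * s)]
      simp [star_mul, hh, mul_assoc]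
    have hε'1 : ε' ≤ ε / 4 := by
      rw [hε']
      apply div_le_div_of_nonneg_left hε.le (by positivity)
      nlinarith [sq_nonneg M]
    have hε'M : M * ε' ≤ ε / 4 := by
      have : M * ε' = ε * M / (4 * (M ^ 2 + M + 1)) := by rw [hε']; ring
      rw [this, div_le_div_iff₀ (by positivity) (by norm_num)]
      nlinarith [sq_nonneg M]
    have hε'M2 : M ^ 2 * ε' ≤ ε / 4 := by
      have : M ^ 2 * ε' = ε * M ^ 2 / (4 * (M ^ 2 + M + 1)) := by rw [hε']; ring
      rw [this, div_le_div_iff₀ (by positivity) (by norm_num)]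
      nlinarith [sq_nonneg M]
    refine ⟨Fin.cons r (fun i => s * y i), ?_⟩
    intro i j
    refine Fin.cases ?_ (fun i => ?_) i
    · refine Fin.cases ?_ (fun j => ?_) j
      · simp only [Fin.cons_zero, if_true]
        linarith
      · simp only [Fin.cons_zero, Fin.cons_succ]
        rw [if_neg (Fin.succ_ne_zero j).symm, sub_zero, ← mul_assoc]
        calc ‖star r * h * s * y j‖ ≤ ‖star r * h * s‖ * ‖y j‖ := norm_mul_le _ _
          _ ≤ ε' * M := by gcongr; exact hM j
          _ < ε := by nlinarith
    · refine Fin.cases ?_ (fun j => ?_) j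
      · simp only [Fin.cons_zero, Fin.cons_succ]
        rw [if_neg (Fin.succ_ne_zero i), sub_zero, star_mul]
        have e : star (y i) * star s * h * r = star (y i) * (star s * h * r) := by noncomm_ring
        rw [e]
        calc ‖star (y i) * (star s * h * r)‖ ≤ ‖star (y i)‖ * ‖star s * h * r‖ := norm_mul_le _ _
          _ ≤ M * ε' := by
            rw [norm_star, hsr]; gcongr; exact hM i
          _ < ε := by linarith
      · simp only [Fin.cons_succ]
        have e : star (s * y i) * h * (s * y j) - (if i.succ = j.succ then h else 0)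
            = star (y i) * (star s * h * s - h) * y j
              + (star (y i) * h * y j - (if i = j then h else 0)) := by
          simp only [Fin.succ_inj, star_mul]; noncomm_ring
        rw [e]
        have b1 : ‖star (y i) * (star s * h * s - h) * y j‖ ≤ M * ε' * M := by
          refine norm_mul₃_le.trans ?_
          rw [norm_star]
          gcongr
          · exact hM i
          · exact hM j
        have b2 := hy i j
        calc _ ≤ ‖star (y i) * (star s * h * s - h) * y j‖
                + ‖star (y i) * h * y j - (if i = j then h else 0)‖ := norm_add_le _ _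
          _ < ε := by nlinarith

/-- The function with `f(λ)²λ = (λ-τ)₊`. -/
noncomputable def frf (τ : ℝ) : ℝ → ℝ := fun x => Real.sqrt (max (x - τ) 0 / x)

theorem frf_spec {τ : ℝ} (hτ : 0 < τ) {x : ℝ} (hx : 0 ≤ x) :
    frf τ x * x * frf τ x = cutf τ x := by
  unfold frf cutf
  by_cases hxτ : x ≤ τ
  · have : max (x - τ) 0 = 0 := max_eq_right (by linarith)
    simp [this]
  · push Not at hxτ
    have hx0 : 0 < x := by linarith
    have hm : 0 ≤ max (x - τ) 0 / x := by positivity
    have : Real.sqrt (max (x - τ) 0 / x) * x * Real.sqrt (max (x - τ) 0 / x)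
        = (Real.sqrt (max (x - τ) 0 / x) * Real.sqrt (max (x - τ) 0 / x)) * x := by ring
    rw [this, Real.mul_self_sqrt hm]
    field_simp

theorem frf_le_one {τ : ℝ} (hτ : 0 < τ) {x : ℝ} (hx : 0 ≤ x) : |frf τ x| ≤ 1 := by
  unfold frf
  rw [abs_of_nonneg (Real.sqrt_nonneg _)]
  apply Real.sqrt_le_one.2
  by_cases hxτ : x ≤ τ
  · have : max (x - τ) 0 = 0 := max_eq_right (by linarith)
    simp [this]
  · push Not at hxτ
    have hx0 : 0 < x := by linarith
    rw [div_le_one hx0]
    apply max_le <;> linarith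

theorem frf_cont {τ : ℝ} (hτ : 0 < τ) : Continuous (frf τ) := by
  unfold frf
  apply Continuous.sqrt
  -- write as a function of `x` that vanishes near `0`
  rw [continuous_iff_continuousAt]
  intro x
  by_cases hx : x = 0
  · subst hx
    have : (fun x : ℝ => max (x - τ) 0 / x) =ᶠ[nhds 0] fun _ => 0 := by
      filter_upwards [Iio_mem_nhds hτ] with y hy
      have hy' : y < τ := hy
      have : max (y - τ) 0 = 0 := max_eq_right (by linarith)
      simp [this]
    exact (continuousAt_const).congr this.symm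
  · exact ContinuousAt.div (by fun_prop) continuousAt_id hx

/-- Approximate frames for the cut `(h-τ)₊` of a positive element. -/
theorem frames (hC : AllPI C) {h : C} (hh : 0 ≤ h) {τ : ℝ} (hτ : 0 < τ) (n : ℕ)
    {ε : ℝ} (hε : 0 < ε) :
    ∃ r : Fin n → C, ∀ i j, ‖star (r i) * h * r j - (if i = j then cut τ h else 0)‖ < ε := by
  have hSA : star h = h := (IsSelfAdjoint.of_nonneg hh).star_eq
  obtain ⟨y, hy⟩ := frames_aux hSA (hC.of_nonneg hh) n ε hε
  have hz : frf τ 0 = 0 := by simp [frf]
  set g : C := cfcₙ (frf τ) h with hg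
  have hgSA : star g = g := (cfcₙ_predicate (frf τ) h : IsSelfAdjoint g).star_eq
  have hgg : star g * h * g = cut τ h := by
    rw [hgSA]
    have hcont := (frf_cont hτ).continuousOn (s := quasispectrum ℝ h)
    have e1 : g * h * g = cfcₙ (fun x => frf τ x * x * frf τ x) h := by
      rw [cfcₙ_mul (fun x => frf τ x * x) (frf τ) h (hcont.mul continuousOn_id) (by simp) hcont hz,
        cfcₙ_mul (frf τ) (fun x => x) h hcont hz continuousOn_id rfl, cfcₙ_id' ℝ h]
    rw [e1]
    unfold cut
    apply cfcₙ_congr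
    intro x hx
    exact frf_spec hτ (quasispectrum_nonneg_of_nonneg h hh x hx)
  have hgn : ‖g‖ ≤ 1 := by
    apply norm_cfcₙ_le
    intro x hx
    exact frf_le_one hτ (quasispectrum_nonneg_of_nonneg h hh x hx)
  refine ⟨fun i => y i * g, fun i j => ?_⟩
  have e : star (y i * g) * h * (y j * g) - (if i = j then cut τ h else 0)
      = star g * (star (y i) * h * y j - (if i = j then h else 0)) * g := by
    split_ifs with hij
    · rw [← hgg]; simp only [star_mul]; noncomm_ring
    · simp only [star_mul, sub_zero]; noncomm_ring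
  rw [e]
  calc _ ≤ ‖g‖ ^ 2 * _ := norm_conj_le _ _
    _ ≤ 1 * _ := by
      gcongr
      exact pow_le_one₀ (norm_nonneg _) hgn
    _ < ε := by rw [one_mul]; exact hy i j

end Crest.Agent.KR
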