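import Mathlib

/-!
# Quotients of non-unital C⋆-algebras by closed two-sided ideals

Mathlib has no C⋆-quotient. For a closed two-sided ideal `I` of a `NonUnitalCStarAlgebra C`:
* `CIdeal.star_mem`: `I` is star-closed;
* `CIdeal.Quo I`: the quotient, a `NonUnitalCStarAlgebra`;
* `CIdeal.π I : C →⋆ₙₐ[ℂ] I.Quo`, surjective, with kernel `I`.
The C⋆-identity uses a one-element approximate unit `h (h + δ)⁻¹` computed in the unitization.
-/

set_option autoImplicit false

namespace Crest.Agent.KR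

open scoped ComplexStarModule

section Resolvent

variable {U : Type*} [CStarAlgebra U]

/-- Resolvent bounds in a unital C⋆-algebra: with `h = z⋆ z` there is a selfadjoint `v`
(namely `(h + δ)⁻¹`) such that `u = δ v` is a contraction, `1 - u = h v` and `‖z u‖² ≤ δ`. -/
theorem exists_resolvent (z : U) {δ : ℝ} (hδ : 0 < δ) :
    ∃ v : U, IsSelfAdjoint v ∧ ‖δ • v‖ ≤ 1 ∧
      1 - δ • v = (star z * z) * v ∧ ‖z * (δ • v)‖ ^ 2 ≤ δ := by
  let _ : PartialOrder U := CStarAlgebra.spectralOrder U
  have _ : StarOrderedRing U := CStarAlgebra.spectralOrderedRing U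
  set h : U := star z * z with hh
  have hsa : IsSelfAdjoint h := IsSelfAdjoint.star_mul_self z
  have hnn : 0 ≤ h := star_mul_self_nonneg z
  have hspec : ∀ t ∈ spectrum ℝ h, 0 ≤ t := fun t ht =>
    spectrum_nonneg_of_nonneg hnn ht
  set f : ℝ → ℝ := fun t => (t + δ)⁻¹ with hf
  have hcont : ContinuousOn f (spectrum ℝ h) := by
    apply ContinuousOn.inv₀ (by fun_prop)
    intro t ht
    have := hspec t ht
    positivity
  have hc1 : ContinuousOn (fun t => δ * f t) (spectrum ℝ h) :=
    continuousOn_const.mul hcont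
  have hc2 : ContinuousOn (fun t => t * f t) (spectrum ℝ h) :=
    continuousOn_id.mul hcont
  set v : U := cfc f h with hv
  have hvsa : IsSelfAdjoint v := cfc_predicate f h
  have h1 : δ • v = cfc (fun t => δ * f t) h := (cfc_const_mul δ f h hcont).symm
  refine ⟨v, hvsa, ?_, ?_, ?_⟩
  · -- `‖δ v‖ ≤ 1`
    rw [h1]
    refine norm_cfc_le zero_le_one ?_
    intro t ht
    have := hspec t ht
    have hpos : 0 < t + δ := by positivity
    simp only [hf, Real.norm_eq_abs]
    rw [abs_of_nonneg (by positivity), mul_inv_le_iff₀ hpos]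
    linarith
  · -- `1 - δ v = h v`
    have h2 : h * v = cfc (fun t => t * f t) h := by
      rw [hv, cfc_mul (fun t => t) f h continuousOn_id hcont, cfc_id' ℝ h]
    have h3 : (1 : U) = cfc (fun _ : ℝ => (1 : ℝ)) h := by
      rw [cfc_const_one ℝ h]
    have h4 := cfc_add h (fun t => t * f t) (fun t => δ * f t) hc2 hc1
    rw [h1, h2, eq_comm, eq_sub_iff_add_eq, ← h4, h3]
    apply cfc_congr
    intro t ht
    have := hspec t ht
    have hpos : t + δ ≠ 0 := by positivity
    simp only [hf]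
    field_simp
  · -- `‖z (δ v)‖² ≤ δ`
    have hu : star (δ • v) = δ • v := by
      rw [star_smul, hvsa.star_eq]; simp
    have key : ‖z * (δ • v)‖ ^ 2 = ‖(δ • v) * h * (δ • v)‖ := by
      have := CStarRing.norm_star_mul_self (x := z * (δ • v))
      rw [star_mul, hu] at this
      rw [sq, ← this]
      congr 1
      rw [hh]; noncomm_ring
    rw [key]
    have h2 : (δ • v) * h * (δ • v)
        = cfc (fun t => (δ * f t) * t * (δ * f t)) h := by
      rw [h1]
      have hc3 : ContinuousOn (fun t => (δ * f t) * t) (spectrum ℝ h) := hc1.mul continuousOn_id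
      rw [cfc_mul (fun t => (δ * f t) * t) (fun t => δ * f t) h hc3 hc1,
        cfc_mul (fun t => δ * f t) (fun t => t) h hc1 continuousOn_id, cfc_id' ℝ h]
    rw [h2]
    refine norm_cfc_le hδ.le ?_
    intro t ht
    have ht0 := hspec t ht
    have hpos : 0 < t + δ := by positivity
    simp only [hf, Real.norm_eq_abs]
    rw [abs_of_nonneg (by positivity)]
    have : δ * (t + δ)⁻¹ * t * (δ * (t + δ)⁻¹) = δ * (δ * t / (t + δ) ^ 2) := by
      field_simp
    rw [this]
    have h5 : δ * t / (t + δ) ^ 2 ≤ 1 := by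
      rw [div_le_one (by positivity)]
      nlinarith
    nlinarith

end Resolvent

/-- A closed two-sided ideal of a non-unital C⋆-algebra. -/
structure CIdeal (C : Type*) [NonUnitalCStarAlgebra C] where
  /-- the underlying subspace -/
  carrier : Submodule ℂ C
  closed : IsClosed (carrier : Set C)
  mul_left : ∀ (a : C) {x : C}, x ∈ carrier → a * x ∈ carrier
  mul_right : ∀ (a : C) {x : C}, x ∈ carrier → x * a ∈ carrier

namespace CIdeal

variable {C : Type*} [NonUnitalCStarAlgebra C] (I : CIdeal C)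

instance : IsClosed (I.carrier : Set C) := I.closed

section Unit

open Unitization

/-- Right multiplication of `inr k` by any element of the unitization stays in `inr`. -/
theorem inr_mul_eq (k : C) (w : Unitization ℂ C) :
    (inr k : Unitization ℂ C) * w = inr (k * w.snd + w.fst • k) := by
  ext <;> simp [Unitization.fst_mul, Unitization.snd_mul, add_comm]

/-- One-element approximate unit. If `j⋆ j ∈ I` then there is `e ∈ I` such that `u = 1 - e` (in the
unitization) is a selfadjoint contraction with `‖j u‖² ≤ δ`. -/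
theorem exists_unit {j : C} (hj : star j * j ∈ I.carrier) {δ : ℝ} (hδ : 0 < δ) :
    ∃ e ∈ I.carrier, ∃ u : Unitization ℂ C, IsSelfAdjoint u ∧ ‖u‖ ≤ 1 ∧
      (1 : Unitization ℂ C) - u = inr e ∧ ‖(inr j : Unitization ℂ C) * u‖ ^ 2 ≤ δ := by
  obtain ⟨v, hv, h1, h2, h3⟩ := exists_resolvent (inr j : Unitization ℂ C) hδ
  refine ⟨star j * j * v.snd + v.fst • (star j * j), ?_, δ • v, ?_, h1, ?_, h3⟩
  · exact I.carrier.add_mem (I.mul_right _ hj) (I.carrier.smul_mem _ hj)
  · rw [IsSelfAdjoint, star_smul, hv.star_eq]; simp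
  · rw [h2, ← inr_mul_eq, ← Unitization.inr_star, ← Unitization.inr_mul]

/-- Closed two-sided ideals of C⋆-algebras are star-closed. -/
theorem star_mem {x : C} (hx : x ∈ I.carrier) : star x ∈ I.carrier := by
  have hcl : star x ∈ closure (I.carrier : Set C) := by
    rw [Metric.mem_closure_iff]
    intro ε hε
    have hδ : 0 < (ε / 2) ^ 2 := by positivity
    obtain ⟨e, he, u, -, -, hu, hle⟩ :=
      I.exists_unit (j := star x) (by simpa using I.mul_right (star x) hx) hδ
    refine ⟨star x * e, I.mul_left _ he, ?_⟩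
    rw [dist_eq_norm]
    have h1 : (inr (star x - star x * e) : Unitization ℂ C) = inr (star x) * u := by
      have : u = 1 - inr e := by rw [← hu]; abel
      rw [this, mul_sub, mul_one, Unitization.inr_sub, Unitization.inr_mul]
    have h2 : ‖star x - star x * e‖ = ‖(inr (star x) : Unitization ℂ C) * u‖ := by
      rw [← h1, Unitization.norm_inr]
    rw [h2]
    have h3 := abs_le_of_sq_le_sq' (a := ‖(inr (star x) : Unitization ℂ C) * u‖) hle
      (by positivity)
    linarith [h3.2]
  rwa [I.closed.closure_eq] at hcl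

end Unit

/-- The quotient of a C⋆-algebra by a closed two-sided ideal. -/
def Quo : Type _ := C ⧸ I.carrier

noncomputable instance : NormedAddCommGroup I.Quo :=
  inferInstanceAs (NormedAddCommGroup (C ⧸ I.carrier))

noncomputable instance : NormedSpace ℂ I.Quo :=
  inferInstanceAs (NormedSpace ℂ (C ⧸ I.carrier))

instance : CompleteSpace I.Quo :=
  inferInstanceAs (CompleteSpace (C ⧸ I.carrier))

/-- The quotient map as a plain function. -/
def qmk (x : C) : I.Quo := (Submodule.Quotient.mk x : C ⧸ I.carrier)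

theorem qmk_surjective : Function.Surjective I.qmk := Submodule.Quotient.mk_surjective _

theorem qmk_eq_iff {x y : C} : I.qmk x = I.qmk y ↔ x - y ∈ I.carrier := Submodule.Quotient.eq _

theorem qmk_add (x y : C) : I.qmk (x + y) = I.qmk x + I.qmk y := rfl

theorem qmk_zero : I.qmk 0 = 0 := rfl

theorem qmk_neg (x : C) : I.qmk (-x) = -I.qmk x := rfl

theorem qmk_sub (x y : C) : I.qmk (x - y) = I.qmk x - I.qmk y := rfl

theorem qmk_smul (r : ℂ) (x : C) : I.qmk (r • x) = r • I.qmk x := rfl

theorem norm_qmk_le (x : C) : ‖I.qmk x‖ ≤ ‖x‖ := Submodule.Quotient.norm_mk_le _ x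

theorem exists_qmk_norm_lt (a : I.Quo) {ε : ℝ} (hε : 0 < ε) :
    ∃ x : C, I.qmk x = a ∧ ‖x‖ < ‖a‖ + ε :=
  Submodule.Quotient.norm_mk_lt (S := I.carrier) a hε

private noncomputable def out (a : I.Quo) : C := Function.surjInv I.qmk_surjective a

private theorem qmk_out (a : I.Quo) : I.qmk (I.out a) = a := Function.surjInv_eq _ a

private noncomputable def mulQ (a b : I.Quo) : I.Quo := I.qmk (I.out a * I.out b)

private theorem mulQ_qmk (x y : C) : I.mulQ (I.qmk x) (I.qmk y) = I.qmk (x * y) := by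
  unfold mulQ
  rw [qmk_eq_iff]
  have h1 : I.out (I.qmk x) - x ∈ I.carrier := (I.qmk_eq_iff).1 (I.qmk_out _)
  have h2 : I.out (I.qmk y) - y ∈ I.carrier := (I.qmk_eq_iff).1 (I.qmk_out _)
  have : I.out (I.qmk x) * I.out (I.qmk y) - x * y
      = (I.out (I.qmk x) - x) * I.out (I.qmk y) + x * (I.out (I.qmk y) - y) := by noncomm_ring
  rw [this]
  exact I.carrier.add_mem (I.mul_right _ h1) (I.mul_left _ h2)

noncomputable instance : NonUnitalNormedRing I.Quo :=
  { (inferInstance : NormedAddCommGroup I.Quo) with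
    mul := I.mulQ
    left_distrib := by
      intro a b c
      obtain ⟨x, rfl⟩ := I.qmk_surjective a
      obtain ⟨y, rfl⟩ := I.qmk_surjective b
      obtain ⟨z, rfl⟩ := I.qmk_surjective c
      change I.mulQ _ (I.qmk y + I.qmk z) = I.mulQ _ _ + I.mulQ _ _
      rw [← qmk_add, mulQ_qmk, mulQ_qmk, mulQ_qmk, mul_add, qmk_add]
    right_distrib := by
      intro a b c
      obtain ⟨x, rfl⟩ := I.qmk_surjective a
      obtain ⟨y, rfl⟩ := I.qmk_surjective b
      obtain ⟨z, rfl⟩ := I.qmk_surjective c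
      change I.mulQ (I.qmk x + I.qmk y) _ = I.mulQ _ _ + I.mulQ _ _
      rw [← qmk_add, mulQ_qmk, mulQ_qmk, mulQ_qmk, add_mul, qmk_add]
    zero_mul := by
      intro a
      obtain ⟨x, rfl⟩ := I.qmk_surjective a
      change I.mulQ 0 _ = 0
      rw [← qmk_zero, mulQ_qmk, zero_mul]
    mul_zero := by
      intro a
      obtain ⟨x, rfl⟩ := I.qmk_surjective a
      change I.mulQ _ 0 = 0
      rw [← qmk_zero, mulQ_qmk, mul_zero]
    mul_assoc := by
      intro a b c
      obtain ⟨x, rfl⟩ := I.qmk_surjective a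
      obtain ⟨y, rfl⟩ := I.qmk_surjective b
      obtain ⟨z, rfl⟩ := I.qmk_surjective c
      change I.mulQ (I.mulQ _ _) _ = I.mulQ _ (I.mulQ _ _)
      rw [mulQ_qmk, mulQ_qmk, mulQ_qmk, mulQ_qmk, mul_assoc]
    norm_mul_le := by
      intro a b
      change ‖I.mulQ a b‖ ≤ _
      apply le_of_forall_pos_le_add
      intro ε hε
      -- choose `η` with `(‖a‖ + η) (‖b‖ + η) ≤ ‖a‖ ‖b‖ + ε`
      obtain ⟨η, hη, hηle⟩ : ∃ η > 0, η * (‖a‖ + ‖b‖ + 1) ≤ ε ∧ η ≤ 1 := by
        refine ⟨min 1 (ε / (‖a‖ + ‖b‖ + 1)), by positivity, ?_, min_le_left _ _⟩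
        have hp : 0 < ‖a‖ + ‖b‖ + 1 := by positivity
        calc min 1 (ε / (‖a‖ + ‖b‖ + 1)) * (‖a‖ + ‖b‖ + 1)
            ≤ ε / (‖a‖ + ‖b‖ + 1) * (‖a‖ + ‖b‖ + 1) := by gcongr; exact min_le_right _ _
          _ = ε := by field_simp
      obtain ⟨x, rfl, hx⟩ := I.exists_qmk_norm_lt a hη
      obtain ⟨y, rfl, hy⟩ := I.exists_qmk_norm_lt b hη
      rw [mulQ_qmk]
      have h1 : ‖I.qmk (x * y)‖ ≤ ‖x‖ * ‖y‖ := (I.norm_qmk_le _).trans (norm_mul_le x y)
      have h2 : ‖x‖ * ‖y‖ ≤ (‖I.qmk x‖ + η) * (‖I.qmk y‖ + η) := by gcongr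
      nlinarith [hηle.1, hηle.2, norm_nonneg (I.qmk x), norm_nonneg (I.qmk y)] }

theorem qmk_mul (x y : C) : I.qmk (x * y) = I.qmk x * I.qmk y := (I.mulQ_qmk x y).symm

private noncomputable def starQ (a : I.Quo) : I.Quo := I.qmk (star (I.out a))

private theorem starQ_qmk (x : C) : I.starQ (I.qmk x) = I.qmk (star x) := by
  unfold starQ
  rw [qmk_eq_iff, ← star_sub]
  exact I.star_mem ((I.qmk_eq_iff).1 (I.qmk_out _))

noncomputable instance : StarRing I.Quo where
  star := I.starQ
  star_involutive := by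
    intro a
    obtain ⟨x, rfl⟩ := I.qmk_surjective a
    change I.starQ (I.starQ _) = _
    rw [starQ_qmk, starQ_qmk, star_star]
  star_mul := by
    intro a b
    obtain ⟨x, rfl⟩ := I.qmk_surjective a
    obtain ⟨y, rfl⟩ := I.qmk_surjective b
    change I.starQ _ = I.starQ _ * I.starQ _
    rw [← qmk_mul, starQ_qmk, starQ_qmk, starQ_qmk, star_mul, qmk_mul]
  star_add := by
    intro a b
    obtain ⟨x, rfl⟩ := I.qmk_surjective a
    obtain ⟨y, rfl⟩ := I.qmk_surjective b
    change I.starQ _ = I.starQ _ + I.starQ _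
    rw [← qmk_add, starQ_qmk, starQ_qmk, starQ_qmk, star_add, qmk_add]

theorem qmk_star (x : C) : I.qmk (star x) = star (I.qmk x) := (I.starQ_qmk x).symm

/-- The C⋆-inequality on the quotient. -/
private theorem norm_sq_le (a : I.Quo) : ‖a‖ * ‖a‖ ≤ ‖a * star a‖ := by
  obtain ⟨x, rfl⟩ := I.qmk_surjective a
  apply le_of_forall_pos_le_add
  intro ε hε
  have hδ : 0 < (ε / 2) ^ 2 := by positivity
  obtain ⟨y, hy, hyn⟩ := I.exists_qmk_norm_lt (I.qmk x * star (I.qmk x)) (half_pos hε)
  rw [← qmk_star, ← qmk_mul, qmk_eq_iff] at hy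
  set j : C := y - x * star x with hj
  have hjI : j ∈ I.carrier := hy
  obtain ⟨e, he, u, husa, hun, hu, hle⟩ :=
    I.exists_unit (j := star j) (by simpa using I.mul_right (star j) hjI) hδ
  have huinr : u = 1 - (Unitization.inr e : Unitization ℂ C) := by rw [← hu]; abel
  -- `‖qmk x‖ ≤ ‖u x‖`
  have h1 : ‖I.qmk x‖ ≤ ‖u * (Unitization.inr x : Unitization ℂ C)‖ := by
    have hm : I.qmk x = I.qmk (x - e * x) := by
      rw [qmk_eq_iff]; simpa using I.mul_right x he
    rw [hm]
    refine (I.norm_qmk_le _).trans (le_of_eq ?_)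
    rw [huinr, sub_mul, one_mul, ← Unitization.norm_inr (𝕜 := ℂ), Unitization.inr_sub,
      Unitization.inr_mul]
  -- the main estimate
  have h2 : ‖u * (Unitization.inr j : Unitization ℂ C)‖ ≤ ε / 2 := by
    have h3 : star ((Unitization.inr (star j) : Unitization ℂ C) * u)
        = u * Unitization.inr j := by
      rw [star_mul, husa.star_eq, ← Unitization.inr_star, star_star]
    rw [← h3, norm_star]
    exact (abs_le_of_sq_le_sq' hle (by positivity)).2
  have h4 : ‖u * (Unitization.inr x : Unitization ℂ C)‖ * ‖u * (Unitization.inr x : Unitization ℂ C)‖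
      ≤ ‖y‖ + ε / 2 := by
    rw [← CStarRing.norm_self_mul_star]
    have h5 : u * (Unitization.inr x : Unitization ℂ C) * star (u * Unitization.inr x)
        = (u * Unitization.inr (y - j)) * u := by
      rw [star_mul, husa.star_eq, ← Unitization.inr_star, hj, sub_sub_cancel,
        Unitization.inr_mul]
      noncomm_ring
    rw [h5]
    calc ‖(u * Unitization.inr (y - j)) * u‖ ≤ ‖u * Unitization.inr (y - j)‖ * ‖u‖ := norm_mul_le _ _
      _ ≤ ‖u * Unitization.inr (y - j)‖ * 1 := by gcongr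
      _ = ‖u * Unitization.inr y - u * Unitization.inr j‖ := by
        rw [mul_one, Unitization.inr_sub, mul_sub]
      _ ≤ ‖u * Unitization.inr y‖ + ‖u * Unitization.inr j‖ := norm_sub_le _ _
      _ ≤ ‖u‖ * ‖(Unitization.inr y : Unitization ℂ C)‖ + ε / 2 := by
        gcongr; exact norm_mul_le _ _
      _ ≤ ‖y‖ + ε / 2 := by
        rw [Unitization.norm_inr]
        have := norm_nonneg y
        nlinarith
  have h6 : ‖I.qmk x‖ * ‖I.qmk x‖ ≤ ‖y‖ + ε / 2 :=
    (mul_self_le_mul_self (norm_nonneg _) h1).trans h4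
  rw [← qmk_star, ← qmk_mul] at hyn ⊢
  linarith

instance : CStarRing I.Quo := CStarRing.of_le_norm_mul_star_self I.norm_sq_le

instance : IsScalarTower ℂ I.Quo I.Quo where
  smul_assoc r a b := by
    obtain ⟨x, rfl⟩ := I.qmk_surjective a
    obtain ⟨y, rfl⟩ := I.qmk_surjective b
    simp only [smul_eq_mul]
    rw [← qmk_smul, ← qmk_mul, ← qmk_mul, smul_mul_assoc, qmk_smul]

instance : SMulCommClass ℂ I.Quo I.Quo where
  smul_comm r a b := by
    obtain ⟨x, rfl⟩ := I.qmk_surjective a
    obtain ⟨y, rfl⟩ := I.qmk_surjective b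
    simp only [smul_eq_mul]
    rw [← qmk_smul, ← qmk_mul, ← qmk_mul, mul_smul_comm, qmk_smul]

instance : StarModule ℂ I.Quo where
  star_smul r a := by
    obtain ⟨x, rfl⟩ := I.qmk_surjective a
    rw [← qmk_smul, ← qmk_star, ← qmk_star, star_smul, qmk_smul]

noncomputable instance : NonUnitalCStarAlgebra I.Quo where

/-- The quotient map as a star-homomorphism. -/
noncomputable def π : C →⋆ₙₐ[ℂ] I.Quo where
  toFun := I.qmk
  map_smul' := I.qmk_smul
  map_zero' := I.qmk_zero
  map_add' := I.qmk_add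
  map_mul' := I.qmk_mul
  map_star' := I.qmk_star

@[simp] theorem π_apply (x : C) : I.π x = I.qmk x := rfl

theorem π_surjective : Function.Surjective I.π := I.qmk_surjective

theorem π_eq_zero_iff {x : C} : I.π x = 0 ↔ x ∈ I.carrier := by
  rw [π_apply, ← qmk_zero, qmk_eq_iff, sub_zero]

theorem norm_π_le (x : C) : ‖I.π x‖ ≤ ‖x‖ := I.norm_qmk_le x

end CIdeal

end Crest.Agent.KR
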