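/-
S0145 base layer: quotients of properly infinite algebras, the ideal `J(h)` as a `CIdeal`,
prime quotients by Zorn.

* `CIdeal.allPI_quo`: proper infiniteness passes to quotients.
* `CIdeal.ofJ`: the closed ideal `J(h)`.
* `CIdeal.lift`, `CIdeal.norm_π_inf`: `‖π_{A ∩ B} x‖ = max ‖π_A x‖ ‖π_B x‖`.
* `CIdeal.exists_maximal_sep`: a closed ideal maximal with `θ ≤ ‖π L‖`.
* `CIdeal.prime_of_maximal`, `CIdeal.prime_elem`: such an ideal is prime.
-/
import Crest.Agent.KR.Quot
import Crest.Agent.KR.Cut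

set_option autoImplicit false

namespace Crest.Agent.KR

namespace CIdeal

variable {C : Type*} [NonUnitalCStarAlgebra C]

/-! ### Proper infiniteness of quotients -/

theorem pi_map {D : Type*} [NonUnitalCStarAlgebra D] (f : C →⋆ₙₐ[ℂ] D) {h : C} (hpi : PI h) :
    PI (f h) := by
  intro ε hε
  obtain ⟨r, s, h1, h2, h3⟩ := hpi ε hε
  refine ⟨f r, f s, ?_, ?_, ?_⟩
  · have : star (f r) * f h * f r - f h = f (star r * h * r - h) := by
      simp only [map_sub, map_mul, map_star]
    rw [this]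
    exact (NonUnitalStarAlgHom.norm_apply_le f _).trans_lt h1
  · have : star (f s) * f h * f s - f h = f (star s * h * s - h) := by
      simp only [map_sub, map_mul, map_star]
    rw [this]
    exact (NonUnitalStarAlgHom.norm_apply_le f _).trans_lt h2
  · have : star (f r) * f h * f s = f (star r * h * s) := by
      simp only [map_mul, map_star]
    rw [this]
    exact (NonUnitalStarAlgHom.norm_apply_le f _).trans_lt h3

/-- Proper infiniteness passes to surjective images, hence to quotients. -/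
theorem allPI_of_surjective {D : Type*} [NonUnitalCStarAlgebra D] (f : C →⋆ₙₐ[ℂ] D)
    (hf : Function.Surjective f) (hC : AllPI C) : AllPI D := by
  intro a
  obtain ⟨x, rfl⟩ := hf a
  have := pi_map f (hC x)
  simpa only [map_mul, map_star] using this

theorem allPI_quo (hC : AllPI C) (I : CIdeal C) : AllPI I.Quo :=
  allPI_of_surjective I.π I.π_surjective hC

/-! ### The order on closed ideals -/

theorem ext_carrier {I K : CIdeal C} (h : I.carrier = K.carrier) : I = K := by
  cases I; cases K; cases h; rfl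

instance : PartialOrder (CIdeal C) :=
  PartialOrder.lift CIdeal.carrier (fun _ _ h => ext_carrier h)

theorem le_def {I K : CIdeal C} : I ≤ K ↔ I.carrier ≤ K.carrier := Iff.rfl

/-- The zero ideal. -/
def bot : CIdeal C where
  carrier := ⊥
  closed := by simp
  mul_left a x hx := by
    rw [Submodule.mem_bot] at hx ⊢; simp [hx]
  mul_right a x hx := by
    rw [Submodule.mem_bot] at hx ⊢; simp [hx]

/-- Intersection of two closed ideals. -/
def inf (A B : CIdeal C) : CIdeal C where
  carrier := A.carrier ⊓ B.carrier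
  closed := by
    rw [Submodule.coe_inf]
    exact A.closed.inter B.closed
  mul_left a _ hx := ⟨A.mul_left a hx.1, B.mul_left a hx.2⟩
  mul_right a _ hx := ⟨A.mul_right a hx.1, B.mul_right a hx.2⟩

/-! ### Lifts and the norm on the quotient by an intersection -/

section Lift

variable (I : CIdeal C) {D : Type*} [NonUnitalCStarAlgebra D]

private noncomputable def liftFun (f : C →⋆ₙₐ[ℂ] D) (a : I.Quo) : D :=
  f (Function.surjInv I.qmk_surjective a)

private theorem liftFun_qmk (f : C →⋆ₙₐ[ℂ] D) (hf : ∀ x ∈ I.carrier, f x = 0) (x : C) :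
    I.liftFun f (I.qmk x) = f x := by
  have h1 : Function.surjInv I.qmk_surjective (I.qmk x) - x ∈ I.carrier :=
    (I.qmk_eq_iff).1 (Function.surjInv_eq _ _)
  have h2 := hf _ h1
  rw [map_sub, sub_eq_zero] at h2
  exact h2

/-- A star homomorphism vanishing on `I` factors through the quotient. -/
noncomputable def lift (f : C →⋆ₙₐ[ℂ] D) (hf : ∀ x ∈ I.carrier, f x = 0) : I.Quo →⋆ₙₐ[ℂ] D where
  toFun := I.liftFun f
  map_smul' r a := by
    obtain ⟨x, rfl⟩ := I.qmk_surjective a
    rw [← qmk_smul, liftFun_qmk I f hf, liftFun_qmk I f hf, map_smul]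
    rfl
  map_zero' := by
    rw [← qmk_zero, liftFun_qmk I f hf, map_zero]
  map_add' a b := by
    obtain ⟨x, rfl⟩ := I.qmk_surjective a
    obtain ⟨y, rfl⟩ := I.qmk_surjective b
    rw [← qmk_add, liftFun_qmk I f hf, liftFun_qmk I f hf, liftFun_qmk I f hf, map_add]
  map_mul' a b := by
    obtain ⟨x, rfl⟩ := I.qmk_surjective a
    obtain ⟨y, rfl⟩ := I.qmk_surjective b
    rw [← qmk_mul, liftFun_qmk I f hf, liftFun_qmk I f hf, liftFun_qmk I f hf, map_mul]
  map_star' a := by
    obtain ⟨x, rfl⟩ := I.qmk_surjective a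
    rw [← qmk_star, liftFun_qmk I f hf, liftFun_qmk I f hf, map_star]

theorem lift_π (f : C →⋆ₙₐ[ℂ] D) (hf : ∀ x ∈ I.carrier, f x = 0) (x : C) :
    I.lift f hf (I.π x) = f x :=
  liftFun_qmk I f hf x

end Lift

/-- `‖π_{A ∩ B} x‖ = max ‖π_A x‖ ‖π_B x‖`. -/
theorem norm_π_inf (A B : CIdeal C) (x : C) :
    ‖(inf A B).π x‖ = max ‖A.π x‖ ‖B.π x‖ := by
  let f : C →⋆ₙₐ[ℂ] A.Quo × B.Quo := NonUnitalStarAlgHom.prod A.π B.π
  have hf : ∀ y ∈ (inf A B).carrier, f y = 0 := by
    intro y hy
    refine Prod.ext ?_ ?_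
    · exact (A.π_eq_zero_iff).2 hy.1
    · exact (B.π_eq_zero_iff).2 hy.2
  have hinj : Function.Injective ((inf A B).lift f hf) := by
    rw [injective_iff_map_eq_zero]
    intro a ha
    obtain ⟨y, rfl⟩ := (inf A B).π_surjective a
    rw [lift_π] at ha
    have h1 : A.π y = 0 := congrArg Prod.fst ha
    have h2 : B.π y = 0 := congrArg Prod.snd ha
    exact ((inf A B).π_eq_zero_iff).2 ⟨(A.π_eq_zero_iff).1 h1, (B.π_eq_zero_iff).1 h2⟩
  have h := NonUnitalStarAlgHom.norm_map ((inf A B).lift f hf) hinj ((inf A B).π x)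
  rw [lift_π] at h
  rw [← h, Prod.norm_def]
  rfl

/-! ### Zorn -/

/-- `I` keeps `L` at distance at least `θ`. -/
def Sep (I : CIdeal C) (L : C) (θ : ℝ) : Prop := ∀ j ∈ I.carrier, θ ≤ ‖L - j‖

theorem sep_iff {I : CIdeal C} {L : C} {θ : ℝ} : I.Sep L θ ↔ θ ≤ ‖I.π L‖ := by
  constructor
  · intro h
    apply le_of_forall_pos_le_add
    intro ε hε
    obtain ⟨x, hx, hxn⟩ := I.exists_qmk_norm_lt (I.π L) hε
    have hj : L - x ∈ I.carrier := by
      have : I.π (L - x) = 0 := by
        rw [map_sub, sub_eq_zero]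
        exact hx.symm
      exact (I.π_eq_zero_iff).1 this
    have := h _ hj
    rw [sub_sub_cancel] at this
    linarith
  · intro h j hj
    refine h.trans ?_
    have : I.π (L - j) = I.π L := by
      rw [map_sub, (I.π_eq_zero_iff).2 hj, sub_zero]
    rw [← this]
    exact I.norm_π_le _

theorem sep_bot {L : C} {θ : ℝ} (h : θ ≤ ‖L‖) : (bot : CIdeal C).Sep L θ := by
  intro j hj
  have : j = 0 := (Submodule.mem_bot ℂ).1 hj
  rw [this, sub_zero]
  exact h

/-- The closed union of a chain of closed ideals. -/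
def chainSup (c : Set (CIdeal C)) (hc : IsChain (· ≤ ·) c) (hne : c.Nonempty) : CIdeal C :=
  let S : Submodule ℂ C := sSup (CIdeal.carrier '' c)
  have hS : ∀ {x : C}, x ∈ S ↔ ∃ I ∈ c, x ∈ I.carrier := by
    intro x
    have hdir : DirectedOn (· ≤ ·) (CIdeal.carrier '' c) := by
      rintro _ ⟨A, hA, rfl⟩ _ ⟨B, hB, rfl⟩
      rcases hc.total hA hB with h | h
      · exact ⟨B.carrier, ⟨B, hB, rfl⟩, h, le_rfl⟩
      · exact ⟨A.carrier, ⟨A, hA, rfl⟩, le_rfl, h⟩
    rw [Submodule.mem_sSup_of_directed (hne.image _) hdir]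
    simp only [Set.mem_image, exists_exists_and_eq_and]
  { carrier := S.topologicalClosure
    closed := Submodule.isClosed_topologicalClosure S
    mul_left := by
      intro a x hx
      have hm : Set.MapsTo (fun y => a * y) (S : Set C) (S : Set C) := by
        intro y hy
        obtain ⟨I, hI, hyI⟩ := hS.1 hy
        exact hS.2 ⟨I, hI, I.mul_left a hyI⟩
      have hx' : x ∈ closure (S : Set C) := hx
      exact map_mem_closure (f := fun y => a * y) (by fun_prop) hx' hm
    mul_right := by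
      intro a x hx
      have hm : Set.MapsTo (fun y => y * a) (S : Set C) (S : Set C) := by
        intro y hy
        obtain ⟨I, hI, hyI⟩ := hS.1 hy
        exact hS.2 ⟨I, hI, I.mul_right a hyI⟩
      have hx' : x ∈ closure (S : Set C) := hx
      exact map_mem_closure (f := fun y => y * a) (by fun_prop) hx' hm }

theorem le_chainSup (c : Set (CIdeal C)) (hc : IsChain (· ≤ ·) c) (hne : c.Nonempty)
    {I : CIdeal C} (hI : I ∈ c) : I ≤ chainSup c hc hne := by
  intro x hx
  apply Submodule.le_topologicalClosure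
  exact (le_sSup (Set.mem_image_of_mem CIdeal.carrier hI)) hx

theorem sep_chainSup (c : Set (CIdeal C)) (hc : IsChain (· ≤ ·) c) (hne : c.Nonempty)
    {L : C} {θ : ℝ} (hsep : ∀ I ∈ c, I.Sep L θ) : (chainSup c hc hne).Sep L θ := by
  have hdir : DirectedOn (· ≤ ·) (CIdeal.carrier '' c) := by
    rintro _ ⟨A, hA, rfl⟩ _ ⟨B, hB, rfl⟩
    rcases hc.total hA hB with h | h
    · exact ⟨B.carrier, ⟨B, hB, rfl⟩, h, le_rfl⟩
    · exact ⟨A.carrier, ⟨A, hA, rfl⟩, le_rfl, h⟩
  intro j hj
  have hcl : IsClosed {j : C | θ ≤ ‖L - j‖} := isClosed_le continuous_const (by fun_prop)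
  refine closure_minimal ?_ hcl hj
  intro y hy
  have hy' : y ∈ sSup (CIdeal.carrier '' c) := hy
  rw [Submodule.mem_sSup_of_directed (hne.image _) hdir] at hy'
  obtain ⟨_, ⟨I, hI, rfl⟩, hyI⟩ := hy'
  exact hsep I hI y hyI

/-- A closed ideal maximal among those keeping `L` at distance at least `θ`. -/
theorem exists_maximal_sep {L : C} {θ : ℝ} (h : θ ≤ ‖L‖) :
    ∃ I : CIdeal C, I.Sep L θ ∧ ∀ K : CIdeal C, I ≤ K → K.Sep L θ → K ≤ I := by
  obtain ⟨m, -, hm⟩ := zorn_le_nonempty₀ {I : CIdeal C | I.Sep L θ} (by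
    intro c hcS hc y hy
    exact ⟨chainSup c hc ⟨y, hy⟩, sep_chainSup c hc ⟨y, hy⟩ (fun I hI => hcS hI),
      fun z hz => le_chainSup c hc ⟨y, hy⟩ hz⟩) bot (sep_bot h)
  exact ⟨m, hm.1, fun K hK hsep => hm.2 hsep hK⟩

/-- Maximal ideals are prime, in ideal form. -/
theorem prime_of_maximal {I : CIdeal C} {L : C} {θ : ℝ} (hI : I.Sep L θ)
    (hmax : ∀ K : CIdeal C, I ≤ K → K.Sep L θ → K ≤ I) {A B : CIdeal C}
    (hA : I ≤ A) (hB : I ≤ B) (hAB : inf A B ≤ I) : A ≤ I ∨ B ≤ I := by
  by_contra hcon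
  rw [not_or] at hcon
  obtain ⟨h1, h2⟩ := hcon
  have hA' : ¬ A.Sep L θ := fun h => h1 (hmax A hA h)
  have hB' : ¬ B.Sep L θ := fun h => h2 (hmax B hB h)
  rw [sep_iff, not_le] at hA' hB'
  have heq : inf A B = I := le_antisymm hAB (fun x hx => ⟨hA hx, hB hx⟩)
  have h3 := sep_iff.1 hI
  rw [← heq, norm_π_inf] at h3
  rcases le_max_iff.1 h3 with h | h <;> linarith

/-- If `x⋆x ∈ I` then `x ∈ I`. -/
theorem mem_of_star_mul_self_mem (I : CIdeal C) {x : C} (h : star x * x ∈ I.carrier) :
    x ∈ I.carrier := by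
  have h1 : I.π (star x * x) = 0 := (I.π_eq_zero_iff).2 h
  rw [map_mul, map_star] at h1
  have h2 : I.π x = 0 := CStarRing.star_mul_self_eq_zero_iff _ |>.1 h1
  exact (I.π_eq_zero_iff).1 h2

/-- `Ann I y = {z | z C y ⊂ I, z y ∈ I}`. -/
def ann (I : CIdeal C) (y : C) : CIdeal C where
  carrier :=
    { carrier := {z | z * y ∈ I.carrier ∧ ∀ b, z * b * y ∈ I.carrier}
      add_mem' := by
        rintro z w ⟨h1, h2⟩ ⟨h3, h4⟩
        refine ⟨by rw [add_mul]; exact I.carrier.add_mem h1 h3, fun b => ?_⟩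
        rw [add_mul, add_mul]
        exact I.carrier.add_mem (h2 b) (h4 b)
      zero_mem' := by simp
      smul_mem' := by
        rintro c z ⟨h1, h2⟩
        refine ⟨by rw [smul_mul_assoc]; exact I.carrier.smul_mem c h1, fun b => ?_⟩
        rw [smul_mul_assoc, smul_mul_assoc]
        exact I.carrier.smul_mem c (h2 b) }
  closed := by
    have : {z | z * y ∈ I.carrier ∧ ∀ b, z * b * y ∈ I.carrier}
        = (fun z => z * y) ⁻¹' (I.carrier : Set C) ∩
          ⋂ b, (fun z => z * b * y) ⁻¹' (I.carrier : Set C) := by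
      ext z; simp
    change IsClosed {z | z * y ∈ I.carrier ∧ ∀ b, z * b * y ∈ I.carrier}
    rw [this]
    refine (I.closed.preimage (by fun_prop)).inter (isClosed_iInter fun b => ?_)
    exact I.closed.preimage (by fun_prop)
  mul_left := by
    rintro a z ⟨h1, h2⟩
    refine ⟨by rw [mul_assoc]; exact I.mul_left a h1, fun b => ?_⟩
    rw [mul_assoc a z b, mul_assoc a (z * b) y]
    exact I.mul_left a (h2 b)
  mul_right := by
    rintro a z ⟨_, h2⟩
    refine ⟨h2 a, fun b => ?_⟩
    rw [mul_assoc z a b]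
    exact h2 (a * b)

/-- `ann2 I y = {w | A w ⊂ I, A C w ⊂ I}` for `A = ann I y`. -/
def ann2 (I : CIdeal C) (A : CIdeal C) : CIdeal C where
  carrier :=
    { carrier := {w | ∀ z ∈ A.carrier, z * w ∈ I.carrier ∧ ∀ b, z * b * w ∈ I.carrier}
      add_mem' := by
        intro w w' h h' z hz
        obtain ⟨h1, h2⟩ := h z hz
        obtain ⟨h3, h4⟩ := h' z hz
        refine ⟨by rw [mul_add]; exact I.carrier.add_mem h1 h3, fun b => ?_⟩
        rw [mul_add]
        exact I.carrier.add_mem (h2 b) (h4 b)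
      zero_mem' := by simp
      smul_mem' := by
        intro c w h z hz
        obtain ⟨h1, h2⟩ := h z hz
        refine ⟨by rw [mul_smul_comm]; exact I.carrier.smul_mem c h1, fun b => ?_⟩
        rw [mul_smul_comm]
        exact I.carrier.smul_mem c (h2 b) }
  closed := by
    have : {w | ∀ z ∈ A.carrier, z * w ∈ I.carrier ∧ ∀ b, z * b * w ∈ I.carrier}
        = ⋂ z ∈ (A.carrier : Set C), ((fun w => z * w) ⁻¹' (I.carrier : Set C) ∩
          ⋂ b, (fun w => z * b * w) ⁻¹' (I.carrier : Set C)) := by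
      ext w; simp
    change IsClosed {w | ∀ z ∈ A.carrier, z * w ∈ I.carrier ∧ ∀ b, z * b * w ∈ I.carrier}
    rw [this]
    refine isClosed_biInter fun z _ => ?_
    refine (I.closed.preimage (by fun_prop)).inter (isClosed_iInter fun b => ?_)
    exact I.closed.preimage (by fun_prop)
  mul_left := by
    intro a w h z hz
    obtain ⟨h1, h2⟩ := h z hz
    refine ⟨?_, fun b => ?_⟩
    · rw [← mul_assoc]
      exact h2 a
    · rw [← mul_assoc, mul_assoc z b a]
      exact h2 (b * a)
  mul_right := by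
    intro a w h z hz
    obtain ⟨h1, h2⟩ := h z hz
    refine ⟨?_, fun b => ?_⟩
    · rw [← mul_assoc]
      exact I.mul_right a h1
    · rw [← mul_assoc]
      exact I.mul_right a (h2 b)

/-- Maximal ideals are prime, elementwise. -/
theorem prime_elem {I : CIdeal C} {L : C} {θ : ℝ} (hI : I.Sep L θ)
    (hmax : ∀ K : CIdeal C, I ≤ K → K.Sep L θ → K ≤ I) {x y : C}
    (h0 : x * y ∈ I.carrier) (h1 : ∀ b, x * b * y ∈ I.carrier) :
    x ∈ I.carrier ∨ y ∈ I.carrier := by
  set A := ann I y with hAdef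
  set B := ann2 I A with hBdef
  have hIA : I ≤ A := by
    intro z hz
    exact ⟨I.mul_right y hz, fun b => I.mul_right y (I.mul_right b hz)⟩
  have hIB : I ≤ B := by
    intro w hw z _
    exact ⟨I.mul_left z hw, fun b => I.mul_left _ hw⟩
  have hAB : inf A B ≤ I := by
    rintro w ⟨hwA, hwB⟩
    have hs : star w ∈ A.carrier := A.star_mem hwA
    exact I.mem_of_star_mul_self_mem (hwB _ hs).1
  have hxA : x ∈ A.carrier := ⟨h0, h1⟩
  have hyB : y ∈ B.carrier := fun z hz => hz
  rcases prime_of_maximal hI hmax hIA hIB hAB with h | h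
  · exact Or.inl (h hxA)
  · exact Or.inr (h hyB)

/-! ### The ideal `J(h)` as a closed ideal -/

section OfJ

variable [PartialOrder C] [StarOrderedRing C]

/-- `J(h)` as a closed ideal. -/
def ofJ (hC : AllPI C) (h : C) (hh : 0 ≤ h) : CIdeal C where
  carrier :=
    { carrier := J h
      add_mem' := fun hz hw => J_add hC hh hz hw
      zero_mem' := by
        intro δ hδ
        exact ⟨0, by simpa using hδ⟩
      smul_mem' := by
        intro c z hz
        have e : star (c • z) * (c • z) = ((‖c‖ ^ 2 : ℝ) : ℝ) • (star z * z) := by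
          have hc : star c * c = ((‖c‖ ^ 2 : ℝ) : ℂ) := by
            rw [Complex.star_def, Complex.conj_mul', Complex.ofReal_pow]
          rw [star_smul, smul_mul_assoc, mul_smul_comm, smul_smul, hc, Complex.coe_smul]
        show Cmp (star (c • z) * (c • z)) h
        rw [e]
        exact Cmp.smul hz (by positivity) }
  closed := J_isClosed h
  mul_left a _ hz := J_mul_left a hz
  mul_right a _ hz := J_mul_right a hz

theorem mem_ofJ (hC : AllPI C) {h : C} (hh : 0 ≤ h) {z : C} :
    z ∈ (ofJ hC h hh).carrier ↔ Cmp (star z * z) h := Iff.rfl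

end OfJ

end CIdeal

end Crest.Agent.KR
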